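import Vale.Agent.P359.Pairs.Square

/-!
P359: two particles of spin `Q/2`. In the orthonormal monomials `√(Q choose a) u^(Q-a) v^a` the
vectors of the component of total spin `Q - 1` are `(b - a) √((Q choose a) (Q choose b))` on
`a + b = S`. They are the lowerings of the highest vector `e₀ ⊗ e₁ - e₁ ⊗ e₀`, and `spinProj` is
the orthogonal projection on their span.
-/

noncomputable section

namespace Vale.Agent.P359.Pairs

open Matrix Finset
open scoped ComplexOrder

variable {Q : ℕ}

/-- The amplitude of the component of spin `Q - 1`. -/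
def amp (x : Fin (Q + 1) × Fin (Q + 1)) : ℝ :=
  (((x.2 : ℕ) : ℝ) - ((x.1 : ℕ) : ℝ)) *
    Real.sqrt ((Q.choose (x.1 : ℕ) : ℝ) * (Q.choose (x.2 : ℕ) : ℝ))

/-- The weight of a pair, counted from the top. -/
def wsum (x : Fin (Q + 1) × Fin (Q + 1)) : ℕ := (x.1 : ℕ) + (x.2 : ℕ)

/-- The vector of weight `S`. -/
def spinVec (Q S : ℕ) : Fin (Q + 1) × Fin (Q + 1) → ℂ :=
  fun x => if wsum x = S then (amp x : ℂ) else 0

/-- Its squared norm. -/
def spinNorm (Q S : ℕ) : ℝ :=
  ∑ x : Fin (Q + 1) × Fin (Q + 1), if wsum x = S then amp x ^ 2 else 0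

/-- Haldane's projection `P⁽¹⁾`. -/
def spinProj (Q : ℕ) : Matrix (Fin (Q + 1) × Fin (Q + 1)) (Fin (Q + 1) × Fin (Q + 1)) ℂ :=
  Matrix.of fun x y =>
    if wsum x = wsum y then ((amp x * amp y / spinNorm Q (wsum x) : ℝ) : ℂ) else 0

/-- The lowering operator of one particle. -/
def lowerOne (Q : ℕ) : Matrix (Fin (Q + 1)) (Fin (Q + 1)) ℂ := Matrix.of fun a b =>
  if (a : ℕ) = (b : ℕ) + 1 then
    (Real.sqrt (((b : ℕ) + 1 : ℝ) * ((Q : ℝ) - ((b : ℕ) : ℝ))) : ℂ) else 0

/-- The lowering operator of two particles. -/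
def lowerTwo (Q : ℕ) : Matrix (Fin (Q + 1) × Fin (Q + 1)) (Fin (Q + 1) × Fin (Q + 1)) ℂ :=
  Matrix.of fun x y => (if x.2 = y.2 then lowerOne Q x.1 y.1 else 0) +
    (if x.1 = y.1 then lowerOne Q x.2 y.2 else 0)

theorem amp_swap (x : Fin (Q + 1) × Fin (Q + 1)) : amp x.swap = -amp x := by
  simp only [amp, Prod.fst_swap, Prod.snd_swap]
  rw [mul_comm (Q.choose (x.2 : ℕ) : ℝ)]
  ring

theorem amp_eq_zero_of_norm {S : ℕ} (h : spinNorm Q S = 0) {x : Fin (Q + 1) × Fin (Q + 1)}
    (hx : wsum x = S) : amp x = 0 := by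
  have := (Finset.sum_eq_zero_iff_of_nonneg (fun y _ => by split_ifs <;> positivity)).1 h x
    (Finset.mem_univ _)
  rw [if_pos hx] at this
  exact sq_eq_zero_iff.1 this

theorem spinProj_isPairProj (Q : ℕ) : IsPairProj (spinProj Q) where
  hermitian := by
    ext x y
    simp only [conjTranspose_apply, spinProj, Matrix.of_apply]
    by_cases h : wsum x = wsum y
    · rw [if_pos h.symm, if_pos h, Complex.star_def, Complex.conj_ofReal, h, mul_comm]
    · rw [if_neg h, if_neg (Ne.symm h), star_zero]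
  idem := by
    ext x y
    simp only [Matrix.mul_apply, spinProj, Matrix.of_apply]
    by_cases h : wsum x = wsum y
    · rw [if_pos h, Finset.sum_congr rfl fun z _ => (_ :
        _ = ((if wsum z = wsum x then amp x * amp y / spinNorm Q (wsum x) ^ 2 * amp z ^ 2
          else 0 : ℝ) : ℂ)), ← Complex.ofReal_sum]
      · congr 1
        by_cases h0 : spinNorm Q (wsum x) = 0
        · rw [h0]; simp
        · rw [Finset.sum_congr rfl fun z _ => (_ : _ = amp x * amp y / spinNorm Q (wsum x) ^ 2 *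
            (if wsum z = wsum x then amp z ^ 2 else 0)), ← Finset.mul_sum]
          rotate_left
          · intro z _; split_ifs <;> simp
          · rw [show (∑ z : Fin (Q + 1) × Fin (Q + 1), if wsum z = wsum x then amp z ^ 2 else 0) =
              spinNorm Q (wsum x) from rfl]
            field_simp
      · intro z _
        by_cases hz : wsum z = wsum x
        · rw [if_pos hz.symm, if_pos (hz.trans h), if_pos hz, hz, ← Complex.ofReal_mul]
          congr 1; ring
        · rw [if_neg (Ne.symm hz), if_neg hz, zero_mul, Complex.ofReal_zero]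
    · rw [if_neg h]
      refine Finset.sum_eq_zero fun z _ => ?_
      by_cases hz : wsum x = wsum z
      · rw [if_neg fun h' => h (hz.trans h'), mul_zero]
      · rw [if_neg hz, zero_mul]
  swap := by
    ext x y
    have hs : ∀ z : Fin (Q + 1) × Fin (Q + 1), wsum z.swap = wsum z := fun z => by
      simp [wsum, add_comm]
    simp only [submatrix_apply, spinProj, Matrix.of_apply, hs, amp_swap, neg_mul_neg]

/-- The projection fixes every vector of the component. -/
theorem spinProj_mulVec_spinVec (S : ℕ) : spinProj Q *ᵥ spinVec Q S = spinVec Q S := by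
  funext x
  simp only [mulVec, dotProduct, spinProj, Matrix.of_apply, spinVec]
  by_cases h : wsum x = S
  · rw [if_pos h]
    by_cases h0 : spinNorm Q S = 0
    · rw [amp_eq_zero_of_norm h0 h]
      simp
    · rw [Finset.sum_congr rfl fun z _ => (_ : _ = ((amp x / spinNorm Q S *
        (if wsum z = S then amp z ^ 2 else 0) : ℝ) : ℂ)), ← Complex.ofReal_sum, ← Finset.mul_sum]
      · rw [show (∑ z : Fin (Q + 1) × Fin (Q + 1), if wsum z = S then amp z ^ 2 else 0) =
          spinNorm Q S from rfl, div_mul_cancel₀ _ h0]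
      · intro z _
        by_cases hz : wsum z = S
        · rw [if_pos (h.trans hz.symm), if_pos hz, if_pos hz, ← Complex.ofReal_mul, h]
          congr 1; ring
        · rw [if_neg hz, if_neg hz]; simp
  · rw [if_neg h]
    refine Finset.sum_eq_zero fun z _ => ?_
    by_cases hz : wsum z = S
    · rw [if_neg fun h' => h (h'.trans hz), zero_mul]
    · rw [if_neg hz, mul_zero]

/-- Its range is the span of those vectors. -/
theorem spinProj_mulVec_mem (v : Fin (Q + 1) × Fin (Q + 1) → ℂ) :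
    spinProj Q *ᵥ v ∈ Submodule.span ℂ (Set.range (spinVec Q)) := by
  have e : spinProj Q *ᵥ v = ∑ y, (v y * ((amp y / spinNorm Q (wsum y) : ℝ) : ℂ)) •
      spinVec Q (wsum y) := by
    funext x
    simp only [mulVec, dotProduct, spinProj, Matrix.of_apply, Finset.sum_apply, Pi.smul_apply,
      smul_eq_mul, spinVec]
    refine Finset.sum_congr rfl fun y _ => ?_
    by_cases h : wsum x = wsum y
    · rw [if_pos h, if_pos h, h]
      push_cast
      ring
    · rw [if_neg h, if_neg h, zero_mul, mul_zero]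
  rw [e]
  exact Submodule.sum_mem _ fun y _ => Submodule.smul_mem _ _ (Submodule.subset_span ⟨_, rfl⟩)

/-- Lowering moves `√(Q choose a)` to `a √(Q choose a)`. -/
theorem lower_sqrt_choose {a : ℕ} (h : a < Q) :
    Real.sqrt ((a + 1 : ℝ) * ((Q : ℝ) - a)) * Real.sqrt (Q.choose a) =
      (a + 1 : ℝ) * Real.sqrt (Q.choose (a + 1)) := by
  have e : (Q.choose (a + 1) : ℝ) * (a + 1) = (Q.choose a : ℝ) * ((Q : ℝ) - a) := by
    have := congrArg (Nat.cast (R := ℝ)) (Nat.choose_succ_right_eq Q a)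
    push_cast [Nat.cast_sub h.le] at this
    linarith
  have hq : (0 : ℝ) ≤ (Q : ℝ) - a := sub_nonneg.2 (by exact_mod_cast h.le)
  rw [← Real.sqrt_mul (by positivity), show (a + 1 : ℝ) * ((Q : ℝ) - a) * (Q.choose a : ℝ) =
    (a + 1 : ℝ) ^ 2 * (Q.choose (a + 1) : ℝ) by linear_combination -((a : ℝ) + 1) * e,
    Real.sqrt_mul (by positivity), Real.sqrt_sq (by positivity)]

/-- Lowering the vector of weight `S` gives `S` times the next one. -/
theorem lowerTwo_spinVec (S : ℕ) :
    lowerTwo Q *ᵥ spinVec Q S = (S : ℂ) • spinVec Q (S + 1) := by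
  classical
  funext ⟨a, b⟩
  simp only [mulVec, dotProduct, lowerTwo, Matrix.of_apply, add_mul, ite_mul, zero_mul,
    Finset.sum_add_distrib, Fintype.sum_prod_type, Pi.smul_apply, smul_eq_mul]
  simp only [Finset.sum_ite_eq, Finset.sum_ite_irrel, Finset.sum_const_zero, Finset.mem_univ,
    if_true]
  -- the two ways to reach `(a, b)`
  have key : ∀ (a b : Fin (Q + 1)), ∑ c : Fin (Q + 1),
      lowerOne Q a c * (if (c : ℕ) + (b : ℕ) = S then
        Complex.ofReal ((((b : ℕ) : ℝ) - ((c : ℕ) : ℝ)) *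
          Real.sqrt ((Q.choose (c : ℕ) : ℝ) * (Q.choose (b : ℕ) : ℝ))) else (0 : ℂ)) =
      if (a : ℕ) + (b : ℕ) = S + 1 then
        Complex.ofReal (((a : ℕ) : ℝ) * (((b : ℕ) : ℝ) - ((a : ℕ) : ℝ) + 1) *
          Real.sqrt ((Q.choose (a : ℕ) : ℝ) * (Q.choose (b : ℕ) : ℝ))) else (0 : ℂ) := by
    intro a b
    by_cases ha : (a : ℕ) = 0
    · rw [Finset.sum_eq_zero fun c _ => by
        rw [lowerOne, Matrix.of_apply, if_neg (by omega), zero_mul]]
      simp [ha]
    · have hlt : (a : ℕ) - 1 < Q + 1 := by omega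
      rw [Finset.sum_eq_single (⟨(a : ℕ) - 1, hlt⟩ : Fin (Q + 1)) (fun c _ hc => by
        rw [lowerOne, Matrix.of_apply, if_neg, zero_mul]
        intro h; exact hc (Fin.ext (by simp only; omega))) (by simp)]
      rw [lowerOne, Matrix.of_apply, if_pos (by simp only; omega)]
      by_cases hS : (a : ℕ) + (b : ℕ) = S + 1
      · rw [if_pos hS, if_pos (by simp only; omega), ← Complex.ofReal_mul]
        congr 1
        obtain ⟨n, hn⟩ := Nat.exists_eq_succ_of_ne_zero ha
        have hnQ : n < Q := by have := a.2; omega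
        have hl := lower_sqrt_choose hnQ
        simp only [hn, Nat.succ_eq_add_one, Nat.add_sub_cancel]
        rw [Real.sqrt_mul (Nat.cast_nonneg _), Real.sqrt_mul (Nat.cast_nonneg _)]
        push_cast
        linear_combination ((((b : ℕ) : ℝ) - (n : ℝ)) * Real.sqrt (Q.choose (b : ℕ))) * hl
      · rw [if_neg hS, if_neg (by simp only; omega), mul_zero]
  have h1 := key a b
  have h2 := key b a
  have e1 : ∀ c, spinVec Q S (c, b) = if (c : ℕ) + (b : ℕ) = S then
      Complex.ofReal ((((b : ℕ) : ℝ) - ((c : ℕ) : ℝ)) *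
        Real.sqrt ((Q.choose (c : ℕ) : ℝ) * (Q.choose (b : ℕ) : ℝ))) else (0 : ℂ) := fun c => rfl
  have e2 : ∀ c, spinVec Q S (a, c) = -(if (c : ℕ) + (a : ℕ) = S then
      Complex.ofReal ((((a : ℕ) : ℝ) - ((c : ℕ) : ℝ)) *
        Real.sqrt ((Q.choose (c : ℕ) : ℝ) * (Q.choose (a : ℕ) : ℝ))) else (0 : ℂ)) := fun c => by
    simp only [spinVec, wsum, amp, add_comm (a : ℕ), mul_comm (Q.choose (a : ℕ) : ℝ)]
    split_ifs
    · push_cast; ring
    · simp
  simp only [e1, e2, mul_neg, Finset.sum_neg_distrib, h1, h2]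
  simp only [spinVec, wsum, amp, add_comm (b : ℕ) (a : ℕ)]
  by_cases hS : (a : ℕ) + (b : ℕ) = S + 1
  · simp only [hS, ↓reduceIte]
    rw [mul_comm (Q.choose (b : ℕ) : ℝ)]
    have : ((a : ℕ) : ℝ) + ((b : ℕ) : ℝ) = (S : ℝ) + 1 := by exact_mod_cast hS
    rw [show (S : ℂ) = ((S : ℝ) : ℂ) by simp, ← Complex.ofReal_neg, ← Complex.ofReal_add,
      ← Complex.ofReal_mul]
    congr 1
    linear_combination ((((b : ℕ) : ℝ) - ((a : ℕ) : ℝ)) *
      Real.sqrt ((Q.choose (a : ℕ) : ℝ) * (Q.choose (b : ℕ) : ℝ))) * this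
  · simp [hS]

end Vale.Agent.P359.Pairs
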