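import Vale.Agent.P359.Pairs.Antisym

/-!
P359: a bound `A + :HH: ≥ -K H` on fermionic states gives the gap `1 - K`.
-/

noncomputable section

namespace Vale.Agent.P359.Pairs

open Matrix Finset
open scoped ComplexOrder

variable {N : ℕ} {ι : Type*} [Fintype ι] [DecidableEq ι]

theorem IsAntisym.add {v w : (Fin N → ι) → ℂ} (hv : IsAntisym v) (hw : IsAntisym w) :
    IsAntisym (v + w) := fun σ x => by
  simp only [Pi.add_apply, hv σ x, hw σ x]; ring

theorem IsAntisym.smul {v : (Fin N → ι) → ℂ} (hv : IsAntisym v) (c : ℂ) : IsAntisym (c • v) :=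
  fun σ x => by simp only [Pi.smul_apply, smul_eq_mul, hv σ x]; ring

/-- The Hamiltonian keeps fermionic states fermionic. -/
theorem ham_antisym {P : Matrix (ι × ι) (ι × ι) ℂ} (hP : IsPairProj P) {v : (Fin N → ι) → ℂ}
    (hv : IsAntisym v) : IsAntisym (ham P N *ᵥ v) := by
  intro σ x
  have hs : ∀ a b : Fin N, pairMat P a b = pairMat P b a := fun a b => by
    rw [pairMat_swap P b a, hP.swap]
  have hH : ∀ x y : Fin N → ι, ham P N (x ∘ σ) (y ∘ σ) = ham P N x y := by
    intro x y
    simp only [ham, Matrix.sum_apply, pairOp]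
    let g : Pair N → Pair N := fun p => ⟨(min (σ p.1.1) (σ p.1.2), max (σ p.1.1) (σ p.1.2)),
      min_lt_max.2 (σ.injective.ne p.2.ne)⟩
    have hg : Function.Injective g := by
      rintro ⟨⟨a, b⟩, hab⟩ ⟨⟨c, e⟩, hce⟩ h
      simp only [g, Subtype.mk.injEq, Prod.mk.injEq] at h
      obtain ⟨h1, h2⟩ := h
      rcases le_total (σ a) (σ b) with hl | hl <;> rcases le_total (σ c) (σ e) with hl' | hl' <;>
        simp only [hl, hl', min_eq_left, min_eq_right, max_eq_left, max_eq_right] at h1 h2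
      · simp [σ.injective h1, σ.injective h2]
      · exact absurd ((σ.injective h1 ▸ σ.injective h2 ▸ hab : e < c)) (not_lt.2 hce.le)
      · exact absurd ((σ.injective h1 ▸ σ.injective h2 ▸ hab : e < c)) (not_lt.2 hce.le)
      · simp [σ.injective h1, σ.injective h2]
    refine Fintype.sum_bijective g ⟨hg, Finite.surjective_of_injective hg⟩ _ _ fun p => ?_
    rcases le_total (σ p.1.1) (σ p.1.2) with hl | hl
    · simp only [g, min_eq_left hl, max_eq_right hl]
      rw [pairMat_perm]
    · simp only [g, min_eq_right hl, max_eq_left hl]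
      rw [pairMat_perm, hs]
  simp only [mulVec, dotProduct, Finset.mul_sum]
  rw [← (relabel σ).sum_comp]
  refine Finset.sum_congr rfl fun y _ => ?_
  rw [relabel_apply, hH, hv σ y]
  ring

/-- The fermionic states as a subspace of Euclidean space. -/
def antisymSub (N : ℕ) (ι : Type*) [Fintype ι] [DecidableEq ι] :
    Submodule ℂ (EuclideanSpace ℂ (Fin N → ι)) where
  carrier := {v | IsAntisym (WithLp.ofLp v)}
  zero_mem' := fun σ x => by simp
  add_mem' := fun {v w} hv hw => IsAntisym.add hv hw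
  smul_mem' := fun c v hv => IsAntisym.smul hv c

/-- `H² ≥ δ H` on fermionic states gives `H ≥ δ` off the fermionic zero states. -/
theorem gap_of_sq_ge {H : Matrix (Fin N → ι) (Fin N → ι) ℂ} (hH : H.IsHermitian)
    (hpos : H.PosSemidef) (hinv : ∀ v, IsAntisym v → IsAntisym (H *ᵥ v)) {δ : ℝ} (hδ : 0 ≤ δ)
    (h : ∀ v, IsAntisym v → δ * (qform H v).re ≤ (qform (H * H) v).re) :
    ∀ v, IsAntisym v → (∀ u, IsAntisym u → H *ᵥ u = 0 → star u ⬝ᵥ v = 0) →
      δ * (star v ⬝ᵥ v).re ≤ (qform H v).re := by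
  intro v hv hperp
  -- `v` is in the range of `H` on fermionic states
  set T := Matrix.toEuclideanLin H
  have hT : T.IsSymmetric := Matrix.isHermitian_iff_isSymmetric.1 hH
  have hTs : ∀ u ∈ antisymSub N ι, T u ∈ antisymSub N ι := fun u hu => hinv _ hu
  have hTr := hT.restrict_invariant hTs
  have hmem : (⟨WithLp.toLp 2 v, hv⟩ : antisymSub N ι) ∈ LinearMap.range (T.restrict hTs) := by
    have e := congrArg Submodule.orthogonal hTr.orthogonal_range
    rw [Submodule.orthogonal_orthogonal] at e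
    refine (SetLike.ext_iff.1 e _).2 ((Submodule.mem_orthogonal _ _).2 fun u hu => ?_)
    have hu0 : H *ᵥ WithLp.ofLp u.1 = 0 := by
      have := congrArg (fun w => WithLp.ofLp w.1) (LinearMap.mem_ker.1 hu)
      exact this
    have := hperp _ u.2 hu0
    rw [Submodule.coe_inner, EuclideanSpace.inner_eq_star_dotProduct]
    rw [dotProduct_comm] at this
    exact this
  obtain ⟨⟨w, hw⟩, hTw⟩ := LinearMap.mem_range.1 hmem
  set w' := WithLp.ofLp w with hw'
  have hv' : H *ᵥ w' = v := congrArg (fun z => WithLp.ofLp z.1) hTw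
  have hww : star w' ᵥ* H = star v := by
    rw [← hv', Matrix.star_mulVec, hH.eq]
  have e1 : qform (H * H) w' = star v ⬝ᵥ v := by
    rw [qform, ← Matrix.mulVec_mulVec, dotProduct_mulVec, hww, hv']
  have e2 : star v ⬝ᵥ w' = qform H w' := by
    rw [qform, dotProduct_mulVec, hww]
  have e3 : star v ⬝ᵥ v = star w' ⬝ᵥ H *ᵥ v := by
    rw [dotProduct_mulVec, hww]
  have hkey := hpos.re_dotProduct_nonneg (v - (δ : ℂ) • w')
  have h2 := h w' hw
  rw [e1] at h2
  have hexp : star (v - (δ : ℂ) • w') ⬝ᵥ H *ᵥ (v - (δ : ℂ) • w') =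
      qform H v - (δ : ℂ) * (star v ⬝ᵥ v) - (δ : ℂ) * (star v ⬝ᵥ v) +
        (δ : ℂ) * (δ : ℂ) * qform H w' := by
    simp only [star_sub, star_smul, Complex.star_def, Complex.conj_ofReal, Matrix.mulVec_sub,
      Matrix.mulVec_smul, sub_dotProduct, dotProduct_sub, smul_dotProduct, dotProduct_smul,
      smul_eq_mul, hv', qform]
    rw [← e3, ← hv', dotProduct_mulVec (star (H *ᵥ w')) H]
    ring
  rw [hexp] at hkey
  simp only [RCLike.re_to_complex, Complex.add_re, Complex.sub_re, Complex.re_ofReal_mul,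
    mul_assoc] at hkey
  nlinarith [mul_le_mul_of_nonneg_left h2 hδ]

/-- The reduction: the adjacent part bounded below gives the gap. -/
theorem gap_of_adj_bound {P : Matrix (ι × ι) (ι × ι) ℂ} (hP : IsPairProj P) {K : ℝ} (hK : K ≤ 1)
    (h : ∀ v, IsAntisym v →
      -K * (qform (ham P N) v).re ≤ (qform (adjPart P N + disjPart P N) v).re) :
    ∀ v, IsAntisym v → (∀ u, IsAntisym u → ham P N *ᵥ u = 0 → star u ⬝ᵥ v = 0) →
      (1 - K) * (star v ⬝ᵥ v).re ≤ (qform (ham P N) v).re := by
  refine gap_of_sq_ge (ham_hermitian hP) (ham_posSemidef hP) (fun v => ham_antisym hP)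
    (by linarith) fun v hv => ?_
  have := h v hv
  rw [ham_sq hP, add_assoc, qform_add, Complex.add_re]
  linarith

end Vale.Agent.P359.Pairs
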