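import Vale.Agent.P359.Pairs.Antisym

/-!
P359: the numbers of pairs, adjacent pairs and disjoint pairs.
-/

noncomputable section

namespace Vale.Agent.P359.Pairs

open Matrix Finset
open scoped ComplexOrder

variable {N : ℕ}

theorem two_mul_card_pair : 2 * Fintype.card (Pair N) = N * (N - 1) := by
  have key : Fintype.card (Pair N) = Fintype.card {z : Sym2 (Fin N) // ¬ z.IsDiag} := by
    refine Fintype.card_congr (Equiv.ofBijective
      (fun p : Pair N => (⟨s(p.1.1, p.1.2), by simpa using p.2.ne⟩ :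
        {z : Sym2 (Fin N) // ¬ z.IsDiag})) ⟨?_, ?_⟩)
    · rintro ⟨⟨a, b⟩, hab⟩ ⟨⟨c, e⟩, hce⟩ h
      simp only [Subtype.mk.injEq, Sym2.eq_iff] at h
      rcases h with ⟨h1, h2⟩ | ⟨h1, h2⟩
      · simp [h1, h2]
      · exact absurd (h1 ▸ h2 ▸ hab : e < c) (not_lt.2 hce.le)
    · rintro ⟨z, hz⟩
      induction z using Sym2.ind with
      | _ a b =>
        rcases lt_or_gt_of_ne (by simpa using hz : a ≠ b) with h | h
        · exact ⟨⟨(a, b), h⟩, rfl⟩
        · exact ⟨⟨(b, a), h⟩, Subtype.ext Sym2.eq_swap⟩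
  have h : Fintype.card (Pair N) = N.choose 2 := by
    rw [key, Sym2.card_subtype_not_diag, Fintype.card_fin]
  rw [h, Nat.choose_two_right, Nat.mul_div_cancel' (Nat.even_mul_pred_self N).two_dvd]

/-- The pair with the two given particles. -/
def mkPair (i j : Fin N) (h : i ≠ j) : Pair N := ⟨(min i j, max i j), min_lt_max.2 h⟩

/-- Ordered triples of different particles. -/
abbrev Triple (N : ℕ) := {t : Fin N × Fin N × Fin N // t.1 ≠ t.2.1 ∧ t.1 ≠ t.2.2 ∧ t.2.1 ≠ t.2.2}

theorem card_triple : Fintype.card (Triple N) = N * (N - 1) * (N - 2) := by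
  have e : Triple N ≃ (Fin 3 ↪ Fin N) :=
    { toFun := fun t => ⟨![t.1.1, t.1.2.1, t.1.2.2], vec3_injective t.2.1 t.2.2.1 t.2.2.2⟩
      invFun := fun f => ⟨(f 0, f 1, f 2), f.injective.ne (by decide), f.injective.ne (by decide),
        f.injective.ne (by decide)⟩
      left_inv := fun t => by simp
      right_inv := fun f => by
        ext x
        fin_cases x <;> simp }
  rw [Fintype.card_congr e, Fintype.card_embedding_eq]
  simp [Nat.descFactorial_succ]
  ring

/-- There are `N (N-1) (N-2)` ordered pairs of adjacent pairs. -/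
theorem adjCount_eq : adjCount N = N * (N - 1) * (N - 2) := by
  rw [← card_triple, adjCount, ← Finset.card_univ]
  refine (Finset.card_nbij
    (fun t : Triple N => (mkPair t.1.1 t.1.2.1 t.2.1, mkPair t.1.1 t.1.2.2 t.2.2.1)) ?_ ?_ ?_).symm
  · rintro ⟨⟨a, b, c⟩, hab, hac, hbc⟩ _
    simp only [Finset.coe_filter, Finset.mem_univ, true_and, Set.mem_ofPred_eq]
    simp only [ne_eq] at hab hac hbc
    simp only [mkPair, ne_eq, Subtype.mk.injEq, Prod.mk.injEq, Share]
    rcases lt_or_gt_of_ne hab with h | h <;> rcases lt_or_gt_of_ne hac with h' | h' <;>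
      simp [min_eq_left, min_eq_right, max_eq_left, max_eq_right, h.le, h'.le, hab, hac, hbc,
        Ne.symm hab, Ne.symm hac, Ne.symm hbc]
  · rintro ⟨⟨a, b, c⟩, hab, hac, hbc⟩ _ ⟨⟨a', b', c'⟩, hab', hac', hbc'⟩ _ h
    simp only [mkPair, Prod.mk.injEq, Subtype.mk.injEq] at h
    obtain ⟨⟨h1, h2⟩, h3, h4⟩ := h
    simp only [ne_eq] at hab hac hbc hab' hac' hbc'
    have e1 : s(a, b) = s(a', b') := by
      rw [Sym2.eq_iff]
      rcases le_total a b with x | x <;> rcases le_total a' b' with y | y <;>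
        simp only [x, y, min_eq_left, min_eq_right, max_eq_left, max_eq_right] at h1 h2 <;>
        simp [h1, h2]
    have e2 : s(a, c) = s(a', c') := by
      rw [Sym2.eq_iff]
      rcases le_total a c with x | x <;> rcases le_total a' c' with y | y <;>
        simp only [x, y, min_eq_left, min_eq_right, max_eq_left, max_eq_right] at h3 h4 <;>
        simp [h3, h4]
    rw [Sym2.eq_iff] at e1 e2
    simp only [Subtype.mk.injEq, Prod.mk.injEq]
    rcases e1 with ⟨x1, y1⟩ | ⟨x1, y1⟩ <;> rcases e2 with ⟨x2, y2⟩ | ⟨x2, y2⟩ <;> subst_vars <;>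
      first
        | exact ⟨rfl, rfl, rfl⟩
        | exact absurd rfl hbc
        | exact absurd rfl hbc'
        | exact absurd rfl hab
        | exact absurd rfl hac
        | simp_all
  · rintro ⟨⟨⟨a, b⟩, hab⟩, ⟨⟨c, e⟩, hce⟩⟩ hpq
    obtain ⟨hne, hsh⟩ := (Finset.mem_filter.1 (Finset.mem_coe.1 hpq)).2
    simp only [ne_eq, Subtype.mk.injEq, Prod.mk.injEq] at hne
    simp only [Share] at hsh
    have hab' : a ≠ b := hab.ne
    have hce' : c ≠ e := hce.ne
    simp only [Set.mem_image, Finset.coe_univ, Set.mem_univ, true_and]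
    rcases hsh with h | h | h | h <;> subst h
    · exact ⟨⟨(a, b, e), hab', hce', fun h => hne ⟨rfl, h⟩⟩,
        by simp [mkPair, min_eq_left hab.le, max_eq_right hab.le, min_eq_left hce.le, max_eq_right hce.le]⟩
    · exact ⟨⟨(a, b, c), hab', hce'.symm, fun h : b = c => absurd (h ▸ hab : a < c) (not_lt.2 hce.le)⟩,
        by simp [mkPair, min_eq_left hab.le, max_eq_right hab.le, min_eq_right hce.le, max_eq_left hce.le]⟩
    · exact ⟨⟨(b, a, e), hab'.symm, hce', fun h : a = e => absurd (h ▸ hab : e < b) (not_lt.2 hce.le)⟩,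
        by simp [mkPair, min_eq_right hab.le, max_eq_left hab.le, min_eq_left hce.le, max_eq_right hce.le]⟩
    · exact ⟨⟨(b, a, c), hab'.symm, hce'.symm, fun h => hne ⟨h, rfl⟩⟩,
        by simp [mkPair, min_eq_right hab.le, max_eq_left hab.le, min_eq_right hce.le, max_eq_left hce.le]⟩

theorem card_pairs_split :
    Fintype.card (Pair N) * Fintype.card (Pair N) =
      Fintype.card (Pair N) + adjCount N + disjCount N := by
  rw [← Fintype.card_prod, ← Finset.card_univ,
    ← Finset.card_filter_add_card_filter_not (s := Finset.univ (α := Pair N × Pair N))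
      (fun pq => pq.1 = pq.2),
    ← Finset.card_filter_add_card_filter_not
      (s := Finset.univ.filter fun pq : Pair N × Pair N => ¬pq.1 = pq.2)
      (fun pq => Share pq.1 pq.2), add_assoc]
  congr 1
  · rw [← Finset.card_univ (α := Pair N)]
    exact Finset.card_nbij' Prod.fst (fun p => (p, p)) (by simp) (by simp)
      (fun pq h => Prod.ext rfl (by simpa using h)) (fun p _ => rfl)
  congr 1
  · rw [Finset.filter_filter]; rfl
  · rw [Finset.filter_filter, disjCount]
    refine congrArg _ (Finset.filter_congr fun pq _ => ⟨fun h => h.2, fun h => ⟨fun e => h ?_, h⟩⟩)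
    simp [Share, e]

end Vale.Agent.P359.Pairs
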