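import Vale.Agent.P359.Pairs.Square

/-!
P359: on antisymmetric states every sum over pairs reduces to the particles `0, 1, 2, 3`.
-/

noncomputable section

namespace Vale.Agent.P359.Pairs

open Matrix Finset
open scoped ComplexOrder

variable {N : ℕ} {ι : Type*} [Fintype ι] [DecidableEq ι]

/-- Fermionic states. -/
def IsAntisym (v : (Fin N → ι) → ℂ) : Prop :=
  ∀ (σ : Equiv.Perm (Fin N)) (x : Fin N → ι),
    v (x ∘ σ) = ((Equiv.Perm.sign σ : ℤ) : ℂ) * v x

/-- The expectation of a matrix. -/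
def qform (M : Matrix (Fin N → ι) (Fin N → ι) ℂ) (v : (Fin N → ι) → ℂ) : ℂ :=
  star v ⬝ᵥ M *ᵥ v

/-- Renaming the particles in a configuration. -/
def relabel (σ : Equiv.Perm (Fin N)) : (Fin N → ι) ≃ (Fin N → ι) :=
  Equiv.arrowCongr σ.symm (Equiv.refl ι)

omit [Fintype ι] [DecidableEq ι] in
theorem relabel_apply (σ : Equiv.Perm (Fin N)) (x : Fin N → ι) : relabel σ x = x ∘ σ := rfl

omit [DecidableEq ι] in
theorem qform_add (A B : Matrix (Fin N → ι) (Fin N → ι) ℂ) (v : (Fin N → ι) → ℂ) :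
    qform (A + B) v = qform A v + qform B v := by
  simp [qform, Matrix.add_mulVec]

omit [DecidableEq ι] in
theorem qform_sum {α : Type*} (s : Finset α) (A : α → Matrix (Fin N → ι) (Fin N → ι) ℂ)
    (v : (Fin N → ι) → ℂ) : qform (∑ a ∈ s, A a) v = ∑ a ∈ s, qform (A a) v := by
  simp [qform, Matrix.sum_mulVec, dotProduct_sum]

omit [DecidableEq ι] in
theorem qform_relabel {v : (Fin N → ι) → ℂ} (hv : IsAntisym v) (σ : Equiv.Perm (Fin N))
    (M : Matrix (Fin N → ι) (Fin N → ι) ℂ) :
    qform (M.submatrix (relabel σ) (relabel σ)) v = qform M v := by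
  have hs : star ((Equiv.Perm.sign σ : ℤ) : ℂ) * ((Equiv.Perm.sign σ : ℤ) : ℂ) = 1 := by
    rcases Int.units_eq_one_or (Equiv.Perm.sign σ) with h | h <;> simp [h]
  simp only [qform, dotProduct, mulVec, submatrix_apply, Finset.mul_sum, Pi.star_apply]
  refine Eq.symm ?_
  rw [← (relabel σ).sum_comp]
  refine Finset.sum_congr rfl fun x _ => ?_
  rw [← (relabel σ).sum_comp]
  refine Finset.sum_congr rfl fun y _ => ?_
  rw [relabel_apply, relabel_apply, hv σ x, hv σ y, star_mul']
  linear_combination (star (v x) * M (x ∘ σ) (y ∘ σ) * v y) * hs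

omit [Fintype ι] in
theorem pairMat_relabel (P : Matrix (ι × ι) (ι × ι) ℂ) (σ : Equiv.Perm (Fin N)) (i j : Fin N) :
    pairMat P (σ i) (σ j) = (pairMat P i j).submatrix (relabel σ) (relabel σ) :=
  Matrix.ext fun x y => pairMat_perm P σ i j x y

/-- Two injective tuples differ by a permutation. -/
theorem exists_perm_comp {m : ℕ} {f g : Fin m → Fin N} (hf : Function.Injective f)
    (hg : Function.Injective g) : ∃ σ : Equiv.Perm (Fin N), ∀ a, σ (f a) = g a := by
  classical
  let e : {x // x ∈ Set.range f} ≃ {x // x ∈ Set.range g} :=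
    (Equiv.ofInjective f hf).symm.trans (Equiv.ofInjective g hg)
  refine ⟨e.extendSubtype, fun a => ?_⟩
  rw [Equiv.extendSubtype_apply_of_mem e (f a) ⟨a, rfl⟩]
  simp [e]

theorem vec3_injective {α : Type*} {a b c : α} (hab : a ≠ b) (hac : a ≠ c) (hbc : b ≠ c) :
    Function.Injective ![a, b, c] := by
  intro x y h
  fin_cases x <;> fin_cases y <;> simp_all

theorem vec4_injective {α : Type*} {a b c d : α} (hab : a ≠ b) (hac : a ≠ c) (had : a ≠ d)
    (hbc : b ≠ c) (hbd : b ≠ d) (hcd : c ≠ d) : Function.Injective ![a, b, c, d] := by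
  intro x y h
  fin_cases x <;> fin_cases y <;> simp_all

variable {P : Matrix (ι × ι) (ι × ι) ℂ} {v : (Fin N → ι) → ℂ}

theorem qform_pair_eq (hv : IsAntisym v) {a b i j : Fin N} (hab : a ≠ b) (hij : i ≠ j) :
    qform (pairMat P a b) v = qform (pairMat P i j) v := by
  have hf : Function.Injective ![i, j] := by
    intro x y h; fin_cases x <;> fin_cases y <;> simp_all
  have hg : Function.Injective ![a, b] := by
    intro x y h; fin_cases x <;> fin_cases y <;> simp_all
  obtain ⟨σ, hσ⟩ := exists_perm_comp hf hg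
  have h0 : σ i = a := hσ 0
  have h1 : σ j = b := hσ 1
  rw [← h0, ← h1, pairMat_relabel, qform_relabel hv]

theorem qform_adjacent_eq (hv : IsAntisym v) {a b c i j k : Fin N} (hab : a ≠ b) (hac : a ≠ c)
    (hbc : b ≠ c) (hij : i ≠ j) (hik : i ≠ k) (hjk : j ≠ k) :
    qform (pairMat P a b * pairMat P a c) v = qform (pairMat P i j * pairMat P i k) v := by
  obtain ⟨σ, hσ⟩ := exists_perm_comp (vec3_injective hij hik hjk) (vec3_injective hab hac hbc)
  have h0 : σ i = a := hσ 0
  have h1 : σ j = b := hσ 1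
  have h2 : σ k = c := hσ 2
  rw [← h0, ← h1, ← h2, pairMat_relabel, pairMat_relabel, Matrix.submatrix_mul_equiv,
    qform_relabel hv]

theorem qform_disjoint_eq (hv : IsAntisym v) {a b c e i j k l : Fin N} (hab : a ≠ b) (hac : a ≠ c)
    (hae : a ≠ e) (hbc : b ≠ c) (hbe : b ≠ e) (hce : c ≠ e) (hij : i ≠ j) (hik : i ≠ k)
    (hil : i ≠ l) (hjk : j ≠ k) (hjl : j ≠ l) (hkl : k ≠ l) :
    qform (pairMat P a b * pairMat P c e) v = qform (pairMat P i j * pairMat P k l) v := by
  obtain ⟨σ, hσ⟩ := exists_perm_comp (vec4_injective hij hik hil hjk hjl hkl)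
    (vec4_injective hab hac hae hbc hbe hce)
  have h0 : σ i = a := hσ 0
  have h1 : σ j = b := hσ 1
  have h2 : σ k = c := hσ 2
  have h3 : σ l = e := hσ 3
  rw [← h0, ← h1, ← h2, ← h3, pairMat_relabel, pairMat_relabel, Matrix.submatrix_mul_equiv,
    qform_relabel hv]

/-- `⟨H⟩` is the number of pairs times one pair. -/
theorem qform_ham (hv : IsAntisym v) {i j : Fin N} (hij : i ≠ j) :
    qform (ham P N) v = (Fintype.card (Pair N) : ℂ) * qform (pairMat P i j) v := by
  rw [ham, qform_sum]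
  refine (Finset.sum_congr rfl (g := fun _ => qform (pairMat P i j) v) fun p _ => ?_).trans ?_
  · exact qform_pair_eq hv p.2.ne hij
  · rw [Finset.sum_const, nsmul_eq_mul, Finset.card_univ]

/-- Number of ordered pairs of different pairs with a common particle. -/
def adjCount (N : ℕ) : ℕ :=
  (Finset.univ.filter fun pq : Pair N × Pair N => pq.1 ≠ pq.2 ∧ Share pq.1 pq.2).card

/-- Number of ordered pairs of disjoint pairs. -/
def disjCount (N : ℕ) : ℕ :=
  (Finset.univ.filter fun pq : Pair N × Pair N => ¬ Share pq.1 pq.2).card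

theorem qform_adjPart (hP : IsPairProj P) (hv : IsAntisym v) {i j k : Fin N} (hij : i ≠ j)
    (hik : i ≠ k) (hjk : j ≠ k) :
    qform (adjPart P N) v = (adjCount N : ℂ) * qform (pairMat P i j * pairMat P i k) v := by
  have hs : ∀ a b : Fin N, pairMat P a b = pairMat P b a := fun a b => by
    rw [pairMat_swap P b a, hP.swap]
  rw [adjPart, ← Fintype.sum_prod_type'
    (f := fun p q : Pair N => if p ≠ q ∧ Share p q then pairOp P p * pairOp P q else 0),
    ← Finset.sum_filter, qform_sum, Finset.sum_congr rfl fun pq hpq => ?_, Finset.sum_const,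
    nsmul_eq_mul]
  · rfl
  obtain ⟨⟨⟨a, b⟩, hab⟩, ⟨⟨c, e⟩, hce⟩⟩ := pq
  obtain ⟨hne, hsh⟩ := (Finset.mem_filter.1 hpq).2
  simp only [ne_eq, Subtype.mk.injEq, Prod.mk.injEq] at hne
  show qform (pairMat P a b * pairMat P c e) v = _
  simp only [Share] at hsh
  have hab' : a ≠ b := hab.ne
  have hce' : c ≠ e := hce.ne
  rcases hsh with h | h | h | h <;> subst h
  · exact qform_adjacent_eq hv hab' hce' (fun h => hne ⟨rfl, h⟩) hij hik hjk
  · rw [hs c a]
    exact qform_adjacent_eq hv hab' hce'.symm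
      (fun h => absurd (h ▸ hab : a < c) (not_lt.2 hce.le)) hij hik hjk
  · rw [hs a b]
    exact qform_adjacent_eq hv hab'.symm hce'
      (fun h => absurd (h ▸ hab : e < b) (not_lt.2 hce.le)) hij hik hjk
  · rw [hs a b, hs c b]
    exact qform_adjacent_eq hv hab'.symm hce'.symm (fun h => hne ⟨h, rfl⟩) hij hik hjk

theorem qform_disjPart (hv : IsAntisym v) {i j k l : Fin N} (hij : i ≠ j) (hik : i ≠ k)
    (hil : i ≠ l) (hjk : j ≠ k) (hjl : j ≠ l) (hkl : k ≠ l) :
    qform (disjPart P N) v = (disjCount N : ℂ) * qform (pairMat P i j * pairMat P k l) v := by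
  rw [disjPart, ← Fintype.sum_prod_type'
    (f := fun p q : Pair N => if Share p q then 0 else pairOp P p * pairOp P q)]
  rw [Finset.sum_congr rfl fun pq _ => (ite_not (Share pq.1 pq.2) _ _).symm, ← Finset.sum_filter,
    qform_sum, Finset.sum_congr rfl fun pq hpq => ?_, Finset.sum_const, nsmul_eq_mul]
  · rfl
  obtain ⟨⟨⟨a, b⟩, hab⟩, ⟨⟨c, e⟩, hce⟩⟩ := pq
  have hsh := (Finset.mem_filter.1 hpq).2
  simp only [Share, not_or] at hsh
  exact qform_disjoint_eq hv hab.ne hsh.1 hsh.2.1 hsh.2.2.1 hsh.2.2.2 hce.ne hij hik hil hjk hjl hkl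

end Vale.Agent.P359.Pairs
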