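import Vale.Agent.P359.Pairs.Spin

/-!
P359: `spinProj Q` is the orthogonal projection on the component of total spin `Q - 1`, defined
without formulas: the span of the lowerings of the highest vector, which is the only vector (up
to scalars) of weight `Q - 1` killed by raising.
-/

noncomputable section

namespace Vale.Agent.P359.Pairs

open Matrix Finset
open scoped ComplexOrder

variable {Q : ℕ}

/-- The raising operator of two particles. -/
def raiseTwo (Q : ℕ) : Matrix (Fin (Q + 1) × Fin (Q + 1)) (Fin (Q + 1) × Fin (Q + 1)) ℂ :=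
  (lowerTwo Q)ᴴ

/-- `Jz = Q/2 - a` on each particle: a vector of total weight `Q - 1` lives on `a + b = 1`. -/
def HighestWeight (Q : ℕ) (v : Fin (Q + 1) × Fin (Q + 1) → ℂ) : Prop :=
  (∀ x, wsum x ≠ 1 → v x = 0) ∧ raiseTwo Q *ᵥ v = 0

/-- The component of spin `Q - 1`: generated by lowering from the highest vector. -/
def spinComp (Q : ℕ) : Submodule ℂ (Fin (Q + 1) × Fin (Q + 1) → ℂ) :=
  Submodule.span ℂ (Set.range fun k : ℕ => lowerTwo Q ^ k *ᵥ spinVec Q 1)

theorem spinVec_highest (hQ : 1 ≤ Q) : HighestWeight Q (spinVec Q 1) := by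
  classical
  refine ⟨fun x hx => if_neg hx, ?_⟩
  funext ⟨a, b⟩
  obtain ⟨i0, hi0⟩ : ∃ i : Fin (Q + 1), (i : ℕ) = 0 := ⟨0, rfl⟩
  obtain ⟨i1, hi1⟩ : ∃ i : Fin (Q + 1), (i : ℕ) = 1 := ⟨⟨1, by omega⟩, rfl⟩
  have hne : i0 ≠ i1 := fun h => by rw [h, hi1] at hi0; exact one_ne_zero hi0
  have hs : ∀ f : Fin (Q + 1) × Fin (Q + 1) → ℂ,
      ∑ z, f z * spinVec Q 1 z = (f (i0, i1) - f (i1, i0)) * (Real.sqrt Q : ℂ) := by
    intro f
    rw [← Finset.sum_subset (Finset.subset_univ {(i0, i1), (i1, i0)}) (fun z _ hz => ?_),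
      Finset.sum_pair (fun h => hne (congrArg Prod.fst h))]
    · simp [spinVec, wsum, amp, hi0, hi1]
      ring
    · rw [spinVec, if_neg, mul_zero]
      intro h
      simp only [wsum] at h
      simp only [Finset.mem_insert, Finset.mem_singleton, Prod.ext_iff, Fin.ext_iff, hi0, hi1] at hz
      omega
  simp only [mulVec, dotProduct, Pi.zero_apply]
  rw [hs]
  simp only [raiseTwo, lowerTwo, lowerOne, conjTranspose_apply, Matrix.of_apply, hi0, hi1,
    Fin.ext_iff]
  by_cases h : (a : ℕ) = 0 ∧ (b : ℕ) = 0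
  · simp [h.1, h.2]
  · have z0 : ∀ c : ℕ, ¬(0 = c + 1) := fun c => by omega
    simp only [z0, if_false]
    rcases not_and_or.1 h with h | h <;> split_ifs <;> simp <;> omega

theorem highest_unique (hQ : 1 ≤ Q) {v : Fin (Q + 1) × Fin (Q + 1) → ℂ} (h : HighestWeight Q v) :
    ∃ c : ℂ, v = c • spinVec Q 1 := by
  classical
  obtain ⟨i0, hi0⟩ : ∃ i : Fin (Q + 1), (i : ℕ) = 0 := ⟨0, rfl⟩
  obtain ⟨i1, hi1⟩ : ∃ i : Fin (Q + 1), (i : ℕ) = 1 := ⟨⟨1, by omega⟩, rfl⟩
  have hne : i0 ≠ i1 := fun h => by rw [h, hi1] at hi0; exact one_ne_zero hi0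
  have hsq : (Real.sqrt Q : ℂ) ≠ 0 :=
    Complex.ofReal_ne_zero.2 (Real.sqrt_ne_zero'.2 (by exact_mod_cast hQ))
  have e := congrFun h.2 (i0, i0)
  simp only [mulVec, dotProduct, Pi.zero_apply] at e
  rw [← Finset.sum_subset (Finset.subset_univ {(i0, i1), (i1, i0)}) (fun z _ hz => ?_),
    Finset.sum_pair (fun h => hne (congrArg Prod.fst h))] at e
  swap
  · rw [h.1 z, mul_zero]
    intro h'
    simp only [wsum] at h'
    simp only [Finset.mem_insert, Finset.mem_singleton, Prod.ext_iff, Fin.ext_iff, hi0, hi1] at hz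
    omega
  simp [raiseTwo, lowerTwo, lowerOne, hi0, hi1, Fin.ext_iff, ← mul_add] at e
  have e' : v (i1, i0) = -v (i0, i1) := by
    rcases e with e | e <;> first | exact eq_neg_of_add_eq_zero_right e | omega
  refine ⟨v (i0, i1) / (Real.sqrt Q : ℂ), funext fun x => ?_⟩
  simp only [Pi.smul_apply, smul_eq_mul, spinVec]
  by_cases hx : wsum x = 1
  · rw [if_pos hx]
    have hx' : x = (i0, i1) ∨ x = (i1, i0) := by
      simp only [wsum] at hx
      simp only [Prod.ext_iff, Fin.ext_iff, hi0, hi1]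
      omega
    rcases hx' with rfl | rfl <;> simp [amp, hi0, hi1, e', hsq]
  · rw [if_neg hx, mul_zero, h.1 x hx]

theorem spinVec_zero : spinVec Q 0 = 0 := by
  funext x
  simp only [spinVec, Pi.zero_apply]
  split_ifs with h
  · simp only [wsum, Nat.add_eq_zero_iff] at h
    simp [amp, h.1, h.2]
  · rfl

theorem lower_pow_spinVec (k : ℕ) :
    lowerTwo Q ^ k *ᵥ spinVec Q 1 = (k.factorial : ℂ) • spinVec Q (k + 1) := by
  induction k with
  | zero => simp
  | succ k ih =>
    rw [pow_succ', ← Matrix.mulVec_mulVec, ih, Matrix.mulVec_smul, lowerTwo_spinVec, smul_smul,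
      Nat.factorial_succ]
    push_cast
    rw [mul_comm]

theorem spinComp_eq : spinComp Q = Submodule.span ℂ (Set.range (spinVec Q)) := by
  refine le_antisymm (Submodule.span_le.2 ?_) (Submodule.span_le.2 ?_)
  · rintro _ ⟨k, rfl⟩
    show lowerTwo Q ^ k *ᵥ spinVec Q 1 ∈ _
    rw [lower_pow_spinVec]
    exact Submodule.smul_mem _ _ (Submodule.subset_span ⟨_, rfl⟩)
  · rintro _ ⟨S, rfl⟩
    cases S with
    | zero => rw [spinVec_zero]; exact Submodule.zero_mem _
    | succ k =>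
      rw [show spinVec Q (k + 1) = (k.factorial : ℂ)⁻¹ • (lowerTwo Q ^ k *ᵥ spinVec Q 1) by
        rw [lower_pow_spinVec, inv_smul_smul₀]
        exact_mod_cast Nat.factorial_ne_zero k]
      exact Submodule.smul_mem _ _ (Submodule.subset_span ⟨k, rfl⟩)

/-- `spinProj Q` is the orthogonal projection on the component of spin `Q - 1`. -/
theorem spinProj_orthogonal (Q : ℕ) :
    (spinProj Q).IsHermitian ∧ spinProj Q * spinProj Q = spinProj Q ∧
      ∀ v, spinProj Q *ᵥ v = v ↔ v ∈ spinComp Q := by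
  refine ⟨(spinProj_isPairProj Q).hermitian, (spinProj_isPairProj Q).idem, fun v => ?_⟩
  rw [spinComp_eq]
  refine ⟨fun h => h ▸ spinProj_mulVec_mem v, fun h => ?_⟩
  induction h using Submodule.span_induction with
  | mem x hx => obtain ⟨S, rfl⟩ := hx; exact spinProj_mulVec_spinVec S
  | zero => simp
  | add x y _ _ hx hy => rw [Matrix.mulVec_add, hx, hy]
  | smul a x _ hx => rw [Matrix.mulVec_smul, hx]

end Vale.Agent.P359.Pairs
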