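import Mathlib

/-!
P359: operators of one pair of particles, as matrices on configurations `Fin N → ι`.
-/

noncomputable section

namespace Vale.Agent.P359.Pairs

open Matrix Finset
open scoped ComplexOrder

variable {N : ℕ} {ι : Type*} [Fintype ι] [DecidableEq ι]

/-- Two configurations agree away from the particles `i` and `j`. -/
def Agree (i j : Fin N) (x y : Fin N → ι) : Prop := ∀ k, k ≠ i → k ≠ j → x k = y k

instance (i j : Fin N) (x y : Fin N → ι) : Decidable (Agree i j x y) := by
  unfold Agree; infer_instance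

/-- A two-particle matrix acting on the particles `i` and `j`. -/
def pairMat (P : Matrix (ι × ι) (ι × ι) ℂ) (i j : Fin N) :
    Matrix (Fin N → ι) (Fin N → ι) ℂ :=
  Matrix.of fun x y => if Agree i j x y then P (x i, x j) (y i, y j) else 0

theorem pairMat_apply (P : Matrix (ι × ι) (ι × ι) ℂ) (i j : Fin N) (x y : Fin N → ι) :
    pairMat P i j x y = if Agree i j x y then P (x i, x j) (y i, y j) else 0 := rfl

omit [Fintype ι] [DecidableEq ι] in
theorem agree_symm {i j : Fin N} {x y : Fin N → ι} (h : Agree i j x y) : Agree i j y x :=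
  fun k hi hj => (h k hi hj).symm

/-- Change two coordinates. -/
def put (i j : Fin N) (x : Fin N → ι) (ab : ι × ι) : Fin N → ι :=
  Function.update (Function.update x i ab.1) j ab.2

omit [Fintype ι] [DecidableEq ι] in
theorem put_left {i j : Fin N} (h : i ≠ j) (x : Fin N → ι) (ab : ι × ι) :
    put i j x ab i = ab.1 := by simp [put, h]

omit [Fintype ι] [DecidableEq ι] in
theorem put_right (i j : Fin N) (x : Fin N → ι) (ab : ι × ι) : put i j x ab j = ab.2 := by
  simp [put]

omit [Fintype ι] [DecidableEq ι] in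
theorem put_other {i j k : Fin N} (hi : k ≠ i) (hj : k ≠ j) (x : Fin N → ι) (ab : ι × ι) :
    put i j x ab k = x k := by simp [put, hi, hj]

omit [Fintype ι] [DecidableEq ι] in
theorem agree_put (i j : Fin N) (x : Fin N → ι) (ab : ι × ι) : Agree i j x (put i j x ab) :=
  fun k hi hj => (put_other hi hj x ab).symm

/-- Sums over configurations agreeing away from `i, j` are sums over the two coordinates. -/
theorem sum_agree {M : Type*} [AddCommMonoid M] {i j : Fin N} (h : i ≠ j) (x : Fin N → ι)
    (F : (Fin N → ι) → M) :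
    ∑ z, (if Agree i j x z then F z else 0) = ∑ ab : ι × ι, F (put i j x ab) := by
  rw [← Finset.sum_filter]
  refine Finset.sum_nbij' (fun z => (z i, z j)) (put i j x) ?_ ?_ ?_ ?_ ?_
  · intro z _; exact Finset.mem_univ _
  · intro ab _; simp [agree_put]
  · intro z hz
    rw [Finset.mem_filter] at hz
    funext k
    by_cases hj : k = j
    · subst hj; simp [put]
    by_cases hi : k = i
    · subst hi; simp [put_left h]
    · rw [put_other hi hj, hz.2 k hi hj]
  · intro ab _; simp [put_left h, put_right]
  · intro z hz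
    rw [Finset.mem_filter] at hz
    congr 1
    funext k
    by_cases hj : k = j
    · subst hj; simp [put]
    by_cases hi : k = i
    · subst hi; simp [put_left h]
    · rw [put_other hi hj, hz.2 k hi hj]

theorem pairMat_mul {i j : Fin N} (h : i ≠ j) (P R : Matrix (ι × ι) (ι × ι) ℂ) :
    pairMat P i j * pairMat R i j = pairMat (P * R) i j := by
  ext x y
  rw [Matrix.mul_apply]
  simp only [pairMat_apply, ite_mul, zero_mul]
  rw [sum_agree h x]
  by_cases hxy : Agree i j x y
  · rw [if_pos hxy, Matrix.mul_apply]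
    refine Finset.sum_congr rfl fun ab _ => ?_
    rw [if_pos, put_left h, put_right]
    exact fun k hi hj => by rw [put_other hi hj, hxy k hi hj]
  · rw [if_neg hxy]
    refine Finset.sum_eq_zero fun ab _ => ?_
    rw [if_neg, mul_zero]
    exact fun h' => hxy fun k hi hj => by rw [← put_other hi hj x ab, h' k hi hj]

omit [Fintype ι] in
theorem pairMat_conjTranspose (P : Matrix (ι × ι) (ι × ι) ℂ) (i j : Fin N) :
    (pairMat P i j)ᴴ = pairMat Pᴴ i j := by
  ext x y
  simp only [conjTranspose_apply, pairMat_apply]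
  by_cases h : Agree i j x y
  · rw [if_pos h, if_pos (agree_symm h)]
  · rw [if_neg h, if_neg fun h' => h (agree_symm h'), star_zero]

omit [Fintype ι] in
/-- Renaming the particles. -/
theorem pairMat_perm (P : Matrix (ι × ι) (ι × ι) ℂ) (σ : Equiv.Perm (Fin N)) (i j : Fin N)
    (x y : Fin N → ι) :
    pairMat P (σ i) (σ j) x y = pairMat P i j (x ∘ σ) (y ∘ σ) := by
  simp only [pairMat_apply, Function.comp_apply]
  refine if_congr ⟨fun h k hi hj => h (σ k) (σ.injective.ne hi) (σ.injective.ne hj),
    fun h k hi hj => ?_⟩ rfl rfl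
  have := h (σ.symm k) (fun e => hi (by rw [← e, σ.apply_symm_apply]))
    (fun e => hj (by rw [← e, σ.apply_symm_apply]))
  simpa using this

omit [Fintype ι] in
theorem pairMat_swap (P : Matrix (ι × ι) (ι × ι) ℂ) (i j : Fin N) :
    pairMat P j i = pairMat (P.submatrix Prod.swap Prod.swap) i j := by
  ext x y
  simp only [pairMat_apply, submatrix_apply, Prod.swap_prod_mk]
  exact if_congr ⟨fun h k hi hj => h k hj hi, fun h k hj hi => h k hi hj⟩ rfl rfl

/-- Pair matrices on disjoint pairs, multiplied. -/
theorem pairMat_mul_disjoint {i j k l : Fin N} (hij : i ≠ j) (hik : i ≠ k) (hil : i ≠ l)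
    (hjk : j ≠ k) (hjl : j ≠ l) (P R : Matrix (ι × ι) (ι × ι) ℂ) (x y : Fin N → ι) :
    (pairMat P i j * pairMat R k l) x y =
      if ∀ m, m ≠ i → m ≠ j → m ≠ k → m ≠ l → x m = y m then
        P (x i, x j) (y i, y j) * R (x k, x l) (y k, y l) else 0 := by
  rw [Matrix.mul_apply]
  simp only [pairMat_apply, ite_mul, zero_mul]
  rw [sum_agree hij x, Finset.sum_eq_single (y i, y j)]
  · rw [put_left hij, put_right, put_other hik.symm hjk.symm, put_other hil.symm hjl.symm, mul_ite,
      mul_zero]
    refine if_congr ⟨fun h m hi hj hk hl => ?_, fun h m hk hl => ?_⟩ rfl rfl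
    · rw [← put_other hi hj x (y i, y j), h m hk hl]
    · by_cases hi : m = i
      · subst hi; rw [put_left hij]
      by_cases hj : m = j
      · subst hj; rw [put_right]
      rw [put_other hi hj, h m hi hj hk hl]
  · intro ab _ hab
    rw [if_neg, mul_zero]
    intro h
    refine hab (Prod.ext ?_ ?_)
    · rw [← h i hik hil, put_left hij]
    · rw [← h j hjk hjl, put_right]
  · simp

theorem pairMat_commute_disjoint {i j k l : Fin N} (hij : i ≠ j) (hkl : k ≠ l) (hik : i ≠ k)
    (hil : i ≠ l) (hjk : j ≠ k) (hjl : j ≠ l) (P R : Matrix (ι × ι) (ι × ι) ℂ) :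
    Commute (pairMat P i j) (pairMat R k l) := by
  ext x y
  rw [pairMat_mul_disjoint hij hik hil hjk hjl,
    pairMat_mul_disjoint hkl hik.symm hjk.symm hil.symm hjl.symm, mul_comm]
  exact if_congr ⟨fun h m hk hl hi hj => h m hi hj hk hl, fun h m hi hj hk hl => h m hk hl hi hj⟩
    rfl rfl

end Vale.Agent.P359.Pairs
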