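import Vale.Agent.P359.Pairs.Basic

/-!
P359: the square of a sum of pair projections, split into equal, adjacent and disjoint pairs.
-/

noncomputable section

namespace Vale.Agent.P359.Pairs

open Matrix Finset
open scoped ComplexOrder

variable {N : ℕ} {ι : Type*} [Fintype ι] [DecidableEq ι]

/-- An orthogonal projection of two particles that commutes with their exchange. -/
structure IsPairProj (P : Matrix (ι × ι) (ι × ι) ℂ) : Prop where
  hermitian : Pᴴ = P
  idem : P * P = P
  swap : P.submatrix Prod.swap Prod.swap = P

/-- Unordered pairs of particles. -/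
abbrev Pair (N : ℕ) := {p : Fin N × Fin N // p.1 < p.2}

/-- Two pairs have a particle in common. -/
def Share (p q : Pair N) : Prop :=
  p.1.1 = q.1.1 ∨ p.1.1 = q.1.2 ∨ p.1.2 = q.1.1 ∨ p.1.2 = q.1.2

instance (p q : Pair N) : Decidable (Share p q) := by unfold Share; infer_instance

variable (P : Matrix (ι × ι) (ι × ι) ℂ)

/-- The operator of one pair. -/
def pairOp (p : Pair N) : Matrix (Fin N → ι) (Fin N → ι) ℂ := pairMat P p.1.1 p.1.2

/-- The sum over all pairs. -/
def ham (N : ℕ) : Matrix (Fin N → ι) (Fin N → ι) ℂ := ∑ p : Pair N, pairOp P p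

/-- The products of two different pairs with a common particle. -/
def adjPart (N : ℕ) : Matrix (Fin N → ι) (Fin N → ι) ℂ :=
  ∑ p : Pair N, ∑ q : Pair N, if p ≠ q ∧ Share p q then pairOp P p * pairOp P q else 0

/-- The products of two disjoint pairs. -/
def disjPart (N : ℕ) : Matrix (Fin N → ι) (Fin N → ι) ℂ :=
  ∑ p : Pair N, ∑ q : Pair N, if Share p q then 0 else pairOp P p * pairOp P q

variable {P}

theorem pairOp_hermitian (hP : IsPairProj P) (p : Pair N) : (pairOp P p)ᴴ = pairOp P p := by
  rw [pairOp, pairMat_conjTranspose, hP.hermitian]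

theorem pairOp_idem (hP : IsPairProj P) (p : Pair N) : pairOp P p * pairOp P p = pairOp P p := by
  rw [pairOp, pairMat_mul p.2.ne, hP.idem]

theorem ham_hermitian (hP : IsPairProj P) : (ham P N).IsHermitian := by
  show (ham P N)ᴴ = ham P N
  rw [ham, conjTranspose_sum]
  exact Finset.sum_congr rfl fun p _ => pairOp_hermitian hP p

/-- `H² = H + A + :HH:`. -/
theorem ham_sq (hP : IsPairProj P) :
    ham P N * ham P N = ham P N + adjPart P N + disjPart P N := by
  have h : ∀ p q : Pair N, pairOp P p * pairOp P q =
      (if p = q then pairOp P p else 0) +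
        (if p ≠ q ∧ Share p q then pairOp P p * pairOp P q else 0) +
        (if Share p q then 0 else pairOp P p * pairOp P q) := by
    intro p q
    by_cases e : p = q
    · subst e
      simp [pairOp_idem hP, Share]
    · by_cases s : Share p q <;> simp [e, s]
  calc ham P N * ham P N = ∑ p : Pair N, ∑ q : Pair N, pairOp P p * pairOp P q := by
        rw [ham, Finset.sum_mul]
        exact Finset.sum_congr rfl fun p _ => Finset.mul_sum _ _ _
    _ = _ := by
        rw [Finset.sum_congr rfl fun p _ => Finset.sum_congr rfl fun q _ => h p q]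
        simp only [Finset.sum_add_distrib, Finset.sum_ite_eq, Finset.mem_univ, if_true]
        rfl

/-- Products of disjoint pairs are nonnegative. -/
theorem pairOp_mul_posSemidef (hP : IsPairProj P) {p q : Pair N} (h : ¬Share p q) :
    (pairOp P p * pairOp P q).PosSemidef := by
  simp only [Share, not_or] at h
  have hc : Commute (pairOp P p) (pairOp P q) :=
    pairMat_commute_disjoint p.2.ne q.2.ne h.1 h.2.1 h.2.2.1 h.2.2.2 P P
  have e : pairOp P p * pairOp P q =
      (pairOp P p * pairOp P q)ᴴ * (pairOp P p * pairOp P q) := by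
    rw [conjTranspose_mul, pairOp_hermitian hP, pairOp_hermitian hP]
    calc pairOp P p * pairOp P q = pairOp P p * pairOp P p * (pairOp P q * pairOp P q) := by
          rw [pairOp_idem hP, pairOp_idem hP]
      _ = pairOp P p * (pairOp P p * pairOp P q) * pairOp P q := by simp only [mul_assoc]
      _ = pairOp P q * pairOp P p * (pairOp P p * pairOp P q) := by
          rw [← hc.eq, mul_assoc, mul_assoc, mul_assoc, ← mul_assoc (pairOp P q) (pairOp P p),
            ← hc.eq]
          simp only [mul_assoc]
  rw [e]
  exact Matrix.posSemidef_conjTranspose_mul_self _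

/-- `:HH: ≥ 0`. -/
theorem disjPart_posSemidef (hP : IsPairProj P) : (disjPart P N).PosSemidef := by
  refine Matrix.posSemidef_sum _ fun p _ => Matrix.posSemidef_sum _ fun q _ => ?_
  by_cases h : Share p q
  · rw [if_pos h]; exact Matrix.PosSemidef.zero
  · rw [if_neg h]; exact pairOp_mul_posSemidef hP h

theorem ham_posSemidef (hP : IsPairProj P) : (ham P N).PosSemidef := by
  refine Matrix.posSemidef_sum _ fun p _ => ?_
  rw [← pairOp_idem hP p]
  nth_rw 1 [← pairOp_hermitian hP p]
  exact Matrix.posSemidef_conjTranspose_mul_self _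

end Vale.Agent.P359.Pairs
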